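import Vale.Agent.P200F.FDefs

set_option autoImplicit false

namespace Vale.Agent.P200.H710

open MvPolynomial Module Vale.Agent.P200F

variable {K : Type*} [Field K] {n : ℕ}

/-- The Hilbert function `H(S/I, d) = dim_K (S/I)_d = dim_K S_d - dim_K I_d`. -/
noncomputable def hilbertFn (I : Ideal (MvPolynomial (Fin n) K)) (d : ℕ) : ℕ :=
  finrank K (homogeneousSubmodule (Fin n) K d) - finrank K (degPart I d)

end Vale.Agent.P200.H710
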