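import Vale.Agent.P200F.L7
import Vale.Agent.P200.H710.Defs

set_option autoImplicit false

namespace Vale.Agent.P200.H710

open MvPolynomial Module Vale.Agent.P200F Vale.Agent.P200F.G Vale.Agent.P200F.B
  Vale.Agent.P200F.L

universe u

/-- The Betti numbers of the lex-plus-powers ideal differ from those of `I` by consecutive
cancellations. -/
theorem exists_cancel (K : Type u) [Field K] {n c : ℕ} (h : c ≤ n) (a : Fin c → ℕ)
    (ha : Monotone a) (h2 : ∀ i, 2 ≤ a i) (f : Fin c → MvPolynomial (Fin n) K)
    (hf : ∀ i, (f i).IsHomogeneous (a i)) (hreg : IsRegularSeq f)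
    (I : Ideal (MvPolynomial (Fin n) K)) (hI : HomIdeal I) (hfI : ∀ i, f i ∈ I)
    (J : Ideal (MvPolynomial (Fin n) K)) (hJ : J.restrictScalars K = lexPlusPowers h a I) :
    ∃ s : ℕ → ℕ → ℕ, (∀ j, s 0 j = 0) ∧
      ∀ p j, bettiNumber J p j = bettiNumber I p j + s p j + s (p + 1) j := by
  have hpos : ∀ i, 1 ≤ a i := fun i => le_trans one_le_two (h2 i)
  obtain ⟨hJ1, hJ2, hJ3⟩ := lexPlusPowers_spec h a hpos f hf hreg I hI hfI J hJ
  have hfI' : Ideal.span (Set.range f) ≤ I := by
    rw [Ideal.span_le]
    rintro _ ⟨i, rfl⟩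
    exact hfI i
  have key : ∀ p, ∀ d,
      finrank K (rc X (piece I (d + 1)) (homogeneousSubmodule (Fin n) K d) p) ≤
        finrank K (rc X (piece J (d + 1)) (homogeneousSubmodule (Fin n) K d) p) := by
    intro p d
    have h1 := (V.sf_zle K h a ha h2 f hf hreg p) d (piece I (d + 1)) (piece_mono hfI' _)
      (G.piece_le I _)
    rwa [← lexPart_eq_lx, ← hJ2] at h1
  have hzero : ∀ (U : Submodule K (MvPolynomial (Fin n) K)) (d : ℕ),
      finrank K (rc X U (homogeneousSubmodule (Fin n) K d) 0) =
        finrank K (chW n 0 (homogeneousSubmodule (Fin n) K d)) := by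
    intro U d
    have h1 : rc X U (homogeneousSubmodule (Fin n) K d) 0 =
        chW n 0 (homogeneousSubmodule (Fin n) K d) := by
      refine le_antisymm (fun c hc => hc.1) fun c hc => ⟨hc, fun t => ?_⟩
      rw [kd_card_zero hc.1]
      exact U.zero_mem
    rw [h1]
  refine ⟨fun p j => if p ≤ j then
    finrank K (rc X (piece J (j - p + 1)) (homogeneousSubmodule (Fin n) K (j - p)) p) -
    finrank K (rc X (piece I (j - p + 1)) (homogeneousSubmodule (Fin n) K (j - p)) p)
    else 0, ?_, ?_⟩
  · intro j
    show (if 0 ≤ j then _ else 0) = 0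
    rw [if_pos (Nat.zero_le j)]
    have e1 := hzero (piece J (j - 0 + 1)) (j - 0)
    have e2 := hzero (piece I (j - 0 + 1)) (j - 0)
    omega
  · intro p j
    rw [B.bettiNumber_eq, B.bettiNumber_eq]
    dsimp only
    rcases lt_or_ge j p with hj | hj
    · rw [betti_of_lt I (Or.inr hj), betti_of_lt J (Or.inr hj), if_neg (by omega),
        if_neg (by omega)]
    obtain ⟨e, rfl⟩ := Nat.exists_eq_add_of_le hj
    rcases e with _ | d
    · have h1 := betti_rc_zero I hI p
      have h2 := betti_rc_zero J hJ1 p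
      have h3 := key p 0
      rw [hJ3 0] at h2
      rw [zero_add] at h3
      rw [if_pos hj, if_neg (by omega), add_zero, Nat.sub_self, zero_add]
      omega
    · have h1 := betti_rc I hI p d
      have h2 := betti_rc J hJ1 p d
      have h3 := key p (d + 1)
      have h4 := key (p + 1) d
      rw [hJ3 (d + 1)] at h2
      have h5 : d + 1 + 1 = d + 2 := rfl
      rw [h5] at h3
      rw [if_pos hj, if_pos (by omega), show p + (d + 1) - p = d + 1 by omega,
        show p + (d + 1) - (p + 1) = d by omega, h5]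
      omega

end Vale.Agent.P200.H710
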