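import Vale.Agent.P200.H710.NJ

set_option autoImplicit false

namespace Vale.Agent.P200.H710

open MvPolynomial Module Vale.Agent.P200F Vale.Agent.P200F.G Vale.Agent.P200F.B
  Vale.Agent.P200F.L Finset

variable {n c : ℕ}

/-- exponents `(a_i - 1 for i < s, r at s, 0 for i > s)` -/
def tp (a : Fin c → ℕ) (s : Fin c) (r : ℕ) : Fin c → ℕ := fun i =>
  if i < s then a i - 1 else if i = s then r else 0

/-- exponents `(0 for i < s, r at s, a_i - 1 for i > s)` -/
def bt (a : Fin c → ℕ) (s : Fin c) (r : ℕ) : Fin c → ℕ := fun i =>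
  if i < s then 0 else if i = s then r else a i - 1

theorem prod_split (g : Fin c → ℕ) (s : Fin c) (h : ∀ i < s, g i = 1) :
    ∏ i, g i = g s * ∏ i ∈ Ioi s, g i := by
  have h1 : ∏ i ∈ Ici s, g i = ∏ i, g i := by
    apply prod_subset (subset_univ _)
    intro i _ hi
    apply h
    rw [mem_Ici] at hi
    exact not_le.1 hi
  rw [← h1, ← Ioi_insert, prod_insert (by simp)]

theorem sum_split_hi (g : Fin c → ℕ) (s : Fin c) (h : ∀ i < s, g i = 0) :
    ∑ i, g i = g s + ∑ i ∈ Ioi s, g i := by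
  have h1 : ∑ i ∈ Ici s, g i = ∑ i, g i := by
    apply sum_subset (subset_univ _)
    intro i _ hi
    apply h
    rw [mem_Ici] at hi
    exact not_le.1 hi
  rw [← h1, ← Ioi_insert, sum_insert (by simp)]

theorem sum_split_lo (g : Fin c → ℕ) (s : Fin c) (h : ∀ i, s < i → g i = 0) :
    ∑ i, g i = ∑ i ∈ Iio s, g i + g s := by
  have h1 : ∑ i ∈ Iic s, g i = ∑ i, g i := by
    apply sum_subset (subset_univ _)
    intro i _ hi
    apply h
    rw [mem_Iic] at hi
    exact not_le.1 hi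
  rw [← h1, ← Iio_insert, sum_insert (by simp), add_comm]

theorem sum_tp (a : Fin c → ℕ) (s : Fin c) (r : ℕ) :
    ∑ i, tp a s r i = ∑ i ∈ Iio s, (a i - 1) + r := by
  rw [sum_split_lo _ s]
  · congr 1
    · refine sum_congr rfl fun i hi => ?_
      rw [mem_Iio] at hi
      simp [tp, hi]
    · simp [tp]
  · intro i hi
    simp [tp, not_lt.2 hi.le, hi.ne']

theorem sum_bt (a : Fin c → ℕ) (s : Fin c) (r : ℕ) :
    ∑ i, bt a s r i = ∑ i ∈ Ioi s, (a i - 1) + r := by
  rw [sum_split_hi _ s, add_comm]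
  · congr 1
    · refine sum_congr rfl fun i hi => ?_
      rw [mem_Ioi] at hi
      simp [bt, not_lt.2 hi.le, hi.ne']
    · simp [bt]
  · intro i hi
    simp [bt, hi]

theorem prod_tp (a : Fin c → ℕ) (hpos : ∀ i, 1 ≤ a i) (s : Fin c) (r : ℕ) :
    ∏ i, (a i - tp a s r i) = (a s - r) * ∏ i ∈ Ioi s, a i := by
  rw [prod_split _ s]
  · congr 1
    · simp [tp]
    · refine prod_congr rfl fun i hi => ?_
      rw [mem_Ioi] at hi
      simp [tp, not_lt.2 hi.le, hi.ne']
  · intro i hi
    have := hpos i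
    simp only [tp, hi, if_true]
    omega

theorem prod_bt (a : Fin c → ℕ) (hpos : ∀ i, 1 ≤ a i) (s : Fin c) (r : ℕ) :
    ∏ i, (bt a s r i + 1) = (r + 1) * ∏ i ∈ Ioi s, a i := by
  rw [prod_split _ s]
  · congr 1
    · simp [bt]
    · refine prod_congr rfl fun i hi => ?_
      rw [mem_Ioi] at hi
      have := hpos i
      simp only [bt, not_lt.2 hi.le, hi.ne', if_false]
      omega
  · intro i hi
    simp [bt, hi]

/-- extension by zero of exponents of the first `c` variables -/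
noncomputable def ex (n : ℕ) (v : Fin c → ℕ) : Fin n →₀ ℕ :=
  Finsupp.equivFunOnFinite.symm fun j => if hj : j.1 < c then v ⟨j.1, hj⟩ else 0

theorem ex_apply (v : Fin c → ℕ) (j : Fin n) :
    ex n v j = if hj : j.1 < c then v ⟨j.1, hj⟩ else 0 := rfl

theorem ex_castLE (h : c ≤ n) (v : Fin c → ℕ) (i : Fin c) : ex n v (Fin.castLE h i) = v i := by
  rw [ex_apply, dif_pos (by simp)]
  rfl

theorem sum_ex (h : c ≤ n) (v : Fin c → ℕ) : ∑ j, ex n v j = ∑ i, v i := by
  obtain ⟨k, rfl⟩ := Nat.exists_eq_add_of_le h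
  rw [Fin.sum_univ_add]
  have h1 : ∑ i : Fin k, ex (c + k) v (Fin.natAdd c i) = 0 := by
    apply sum_eq_zero
    intro i _
    rw [ex_apply, dif_neg (by simp)]
  rw [h1, add_zero]
  refine sum_congr rfl fun i _ => ?_
  rw [ex_apply, dif_pos (by simp)]
  rfl

theorem tp_lt (a : Fin c → ℕ) (hpos : ∀ i, 1 ≤ a i) (s : Fin c) {r : ℕ} (hr : r < a s)
    (i : Fin c) : tp a s r i < a i := by
  have := hpos i
  unfold tp
  split_ifs with h1 h2
  · omega
  · rw [h2]; exact hr
  · omega

theorem bt_lt (a : Fin c → ℕ) (hpos : ∀ i, 1 ≤ a i) (s : Fin c) {r : ℕ} (hr : r < a s)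
    (i : Fin c) : bt a s r i < a i := by
  have := hpos i
  unfold bt
  split_ifs with h1 h2
  · omega
  · rw [h2]; exact hr
  · omega

/-- the lexicographically greatest exponent of degree `∑_(i<s) (a_i - 1) + r` outside `P` -/
theorem tp_max (h : c ≤ n) (a : Fin c → ℕ) (s : Fin c) (r : ℕ)
    (e : Fin n →₀ ℕ) (he : e ∈ outside h a (∑ i ∈ Iio s, (a i - 1) + r)) :
    ¬ lexGT e (ex n (tp a s r)) := by
  rintro ⟨j, hj, hlt⟩
  have hjs : ¬ (j.1 < s.1) := by
    intro hjs
    have h1 := he.1 ⟨j.1, hjs.trans s.2⟩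
    have h2 : Fin.castLE h ⟨j.1, hjs.trans s.2⟩ = j := rfl
    rw [h2] at h1
    rw [ex_apply, dif_pos (hjs.trans s.2)] at hj
    have h3 : (⟨j.1, hjs.trans s.2⟩ : Fin c) < s := hjs
    simp only [tp, h3, if_true] at hj
    omega
  have hle : ∀ k, ex n (tp a s r) k ≤ e k := by
    intro k
    rcases lt_trichotomy k j with hk | hk | hk
    · exact (hlt k hk).ge
    · rw [hk]; exact hj.le
    · rw [ex_apply]
      split_ifs with hkc
      · have h1 : s < (⟨k.1, hkc⟩ : Fin c) := by
          show s.1 < k.1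
          have : j.1 < k.1 := hk
          omega
        simp [tp, not_lt.2 h1.le, h1.ne']
      · exact Nat.zero_le _
  have hsum : ∑ k, ex n (tp a s r) k < ∑ k, e k :=
    sum_lt_sum (fun k _ => hle k) ⟨j, mem_univ _, hj⟩
  rw [sum_ex h, sum_tp, he.2] at hsum
  exact lt_irrefl _ hsum

/-- points of an NJ set avoid the box above a lex-greatest exponent which is not in it -/
theorem proj_mem (h : c ≤ n) (a : Fin c → ℕ) {N : Set (Fin n →₀ ℕ)} (hN : IsNJ h a N)
    (v : Fin c → ℕ) (hv : ex n v ∉ N) (m : Fin n →₀ ℕ) (hm : m ∈ N) :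
    (fun i => m (Fin.castLE h i)) ∈
      Fintype.piFinset (fun i => range (a i)) \ Fintype.piFinset (fun i => Ico (v i) (a i)) := by
  rw [mem_sdiff, Fintype.mem_piFinset, Fintype.mem_piFinset]
  refine ⟨fun i => mem_range.2 (hN.out m hm i), fun hall => hv ?_⟩
  refine hN.down m hm _ ?_
  intro k
  rw [ex_apply]
  split_ifs with hk
  · exact (mem_Ico.1 (hall ⟨k.1, hk⟩)).1
  · exact Nat.zero_le _

theorem card_box_sdiff (a : Fin c → ℕ) (v : Fin c → ℕ) :
    (Fintype.piFinset (fun i => range (a i)) \ Fintype.piFinset (fun i => Ico (v i) (a i))).card +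
      ∏ i, (a i - v i) = ∏ i, a i := by
  have hsub : Fintype.piFinset (fun i => Ico (v i) (a i)) ⊆
      Fintype.piFinset (fun i => range (a i)) := by
    apply Fintype.piFinset_subset
    intro i x hx
    rw [mem_Ico] at hx
    exact mem_range.2 hx.2
  have h1 := card_sdiff_add_card_eq_card hsub
  rw [Fintype.card_piFinset, Fintype.card_piFinset] at h1
  simpa using h1

end Vale.Agent.P200.H710
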