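import Vale.Agent.P200.H710.Main

set_option autoImplicit false

namespace Vale.Agent.P200.H710

open MvPolynomial Module Vale.Agent.P200F Vale.Agent.P200F.G Vale.Agent.P200F.B
  Vale.Agent.P200F.L Finset

universe u

variable {c : ℕ}

theorem fin_deg {n : ℕ} (N : Set (Fin n →₀ ℕ)) (d : ℕ) :
    {m : Fin n →₀ ℕ | m ∈ N ∧ ∑ i, m i = d}.Finite :=
  (finite_degree_eq d).subset fun _ hm => hm.2

/-- one more variable than forms -/
theorem upper_count (h : c ≤ c + 1) (a : Fin c → ℕ) {N : Set (Fin (c + 1) →₀ ℕ)}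
    (hN : IsNJ h a N) (v : Fin c → ℕ) (hv : ex (c + 1) v ∉ N) (d : ℕ) :
    {m : Fin (c + 1) →₀ ℕ | m ∈ N ∧ ∑ i, m i = d}.ncard + ∏ i, (a i - v i) ≤ ∏ i, a i := by
  rw [← card_box_sdiff a v]
  apply Nat.add_le_add_right
  rw [← Set.ncard_coe_finset]
  refine Set.ncard_le_ncard_of_injOn (fun m i => m (Fin.castLE h i))
    (fun m hm => mem_coe.2 (proj_mem h a hN v hv m hm.1)) ?_ (finite_toSet _)
  rintro m ⟨-, hm⟩ m' ⟨-, hm'⟩ heq
  have h1 : ∀ i : Fin c, m i.castSucc = m' i.castSucc := fun i => congrFun heq i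
  have h2 : m (Fin.last c) = m' (Fin.last c) := by
    rw [Fin.sum_univ_castSucc] at hm hm'
    have h3 : ∑ i : Fin c, m i.castSucc = ∑ i : Fin c, m' i.castSucc :=
      sum_congr rfl fun i _ => h1 i
    omega
  ext j
  refine Fin.lastCases ?_ (fun i => ?_) j
  · exact h2
  · exact h1 i

/-- as many variables as forms -/
theorem upper_count_art (a : Fin c → ℕ) {N : Set (Fin c →₀ ℕ)}
    (hN : IsNJ le_rfl a N) (v : Fin c → ℕ) (hv : ex c v ∉ N) (D : ℕ) :
    ∑ d ∈ range D, {m : Fin c →₀ ℕ | m ∈ N ∧ ∑ i, m i = d}.ncard + ∏ i, (a i - v i) ≤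
      ∏ i, a i := by
  rw [← card_box_sdiff a v]
  apply Nat.add_le_add_right
  set T := Fintype.piFinset (fun i => range (a i)) \ Fintype.piFinset (fun i => Ico (v i) (a i))
    with hT
  have h1 : ∀ d, {m : Fin c →₀ ℕ | m ∈ N ∧ ∑ i, m i = d}.ncard ≤
      (T.filter fun w => ∑ i, w i = d).card := by
    intro d
    rw [← Set.ncard_coe_finset]
    refine Set.ncard_le_ncard_of_injOn (fun m i => m (Fin.castLE le_rfl i)) ?_ ?_
      (finite_toSet _)
    · rintro m ⟨hm, hmd⟩
      rw [mem_coe, mem_filter]
      exact ⟨proj_mem le_rfl a hN v hv m hm, hmd⟩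
    · rintro m - m' - heq
      ext j
      exact congrFun heq j
  refine (sum_le_sum fun d _ => h1 d).trans ?_
  have h2 : (T.filter fun w => ∑ i, w i < D).card =
      ∑ d ∈ range D, ((T.filter fun w => ∑ i, w i < D).filter fun w => ∑ i, w i = d).card :=
    card_eq_sum_card_fiberwise fun w hw => by
      rw [mem_coe, mem_range]
      rw [mem_coe, mem_filter] at hw
      exact hw.2
  have h3 : ∀ d ∈ range D, ((T.filter fun w => ∑ i, w i < D).filter fun w => ∑ i, w i = d).card =
      (T.filter fun w => ∑ i, w i = d).card := by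
    intro d hd
    rw [filter_filter]
    congr 1
    apply filter_congr
    intro w _
    rw [mem_range] at hd
    constructor
    · exact fun h => h.2
    · exact fun h => ⟨by rw [h]; exact hd, h⟩
  rw [← sum_congr rfl h3, ← h2]
  exact card_le_card (filter_subset _ _)

/-- growth from degree `m` to degree `m + 1` forces many points -/
theorem lower_count (h : c ≤ c + 1) (a : Fin c → ℕ) (hpos : ∀ i, 1 ≤ a i)
    {N : Set (Fin (c + 1) →₀ ℕ)} (hN : IsNJ h a N) (s : Fin c) (r : ℕ) (hr : r < a s) (m : ℕ)
    (hm : m + 1 = ∑ i ∈ Ioi s, (a i - 1) + r)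
    (hlt : {e : Fin (c + 1) →₀ ℕ | e ∈ N ∧ ∑ i, e i = m}.ncard <
      {e : Fin (c + 1) →₀ ℕ | e ∈ N ∧ ∑ i, e i = m + 1}.ncard) :
    (r + 1) * ∏ i ∈ Ioi s, a i ≤ {e : Fin (c + 1) →₀ ℕ | e ∈ N ∧ ∑ i, e i = m + 1}.ncard := by
  -- an element of `N` of degree `m + 1` without the last variable
  obtain ⟨u, huN, hud, hul⟩ : ∃ u ∈ N, ∑ i, u i = m + 1 ∧ u (Fin.last c) = 0 := by
    by_contra hcon
    push Not at hcon
    apply absurd hlt
    rw [not_lt]
    refine Set.ncard_le_ncard_of_injOn (fun e => e - Finsupp.single (Fin.last c) 1) ?_ ?_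
      (fin_deg N m)
    · rintro e ⟨heN, hed⟩
      have h0 : Finsupp.single (Fin.last c) 1 ≤ e := by
        rw [Finsupp.single_le_iff]
        have := hcon e heN hed
        omega
      refine ⟨hN.down e heN _ tsub_le_self, ?_⟩
      have h1 : ∑ i, (Finsupp.single (Fin.last c) 1 + (e - Finsupp.single (Fin.last c) 1) :
          Fin (c + 1) →₀ ℕ) i = m + 1 := by
        rw [add_tsub_cancel_of_le h0]
        exact hed
      simp only [Finsupp.add_apply, sum_add_distrib] at h1
      have h3 : ∑ i, (Finsupp.single (Fin.last c) 1 : Fin (c + 1) →₀ ℕ) i = 1 := by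
        rw [Finset.sum_eq_single (Fin.last c)]
        · simp
        · intro b _ hb
          rw [Finsupp.single_apply, if_neg hb.symm]
        · simp
      simp only [Finsupp.tsub_apply]
      rw [h3] at h1
      simp only [Finsupp.tsub_apply] at h1
      omega
    · rintro e ⟨heN, hed⟩ e' ⟨heN', hed'⟩ heq
      have h0 : Finsupp.single (Fin.last c) 1 ≤ e := by
        rw [Finsupp.single_le_iff]
        have := hcon e heN hed
        omega
      have h0' : Finsupp.single (Fin.last c) 1 ≤ e' := by
        rw [Finsupp.single_le_iff]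
        have := hcon e' heN' hed'
        omega
      have h4 := congrArg (fun x => Finsupp.single (Fin.last c) 1 + x) heq
      simp only [add_tsub_cancel_of_le h0, add_tsub_cancel_of_le h0'] at h4
      exact h4
  -- the lexicographically least one
  have hbd : ∑ i, ex (c + 1) (bt a s r) i = m + 1 := by
    rw [sum_ex h, sum_bt, hm]
  have hbN : ex (c + 1) (bt a s r) ∈ N := by
    refine hN.lex u huN _ (fun i => ?_) (by rw [hbd, hud]) ?_
    · rw [ex_castLE]
      exact bt_lt a hpos s hr i
    · rintro ⟨j, hj, hlt'⟩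
      have hjc : j.1 < c := by
        by_contra hjc
        rw [ex_apply, dif_neg hjc] at hj
        exact Nat.not_lt_zero _ hj
      have hjs : ¬ (j.1 < s.1) := by
        intro hjs
        rw [ex_apply, dif_pos hjc] at hj
        have h3 : (⟨j.1, hjc⟩ : Fin c) < s := hjs
        simp only [bt, h3, if_true] at hj
        exact Nat.not_lt_zero _ hj
      have hle : ∀ k, u k ≤ ex (c + 1) (bt a s r) k := by
        intro k
        rcases lt_trichotomy k j with hk | hk | hk
        · exact (hlt' k hk).ge
        · rw [hk]; exact hj.le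
        · by_cases hkc : k.1 < c
          · have h1 : s < (⟨k.1, hkc⟩ : Fin c) := by
              show s.1 < k.1
              have : j.1 < k.1 := hk
              omega
            have h5 := hN.out u huN ⟨k.1, hkc⟩
            have h6 : Fin.castLE h ⟨k.1, hkc⟩ = k := rfl
            rw [h6] at h5
            rw [ex_apply, dif_pos hkc]
            simp only [bt, not_lt.2 h1.le, h1.ne', if_false]
            omega
          · have h6 : k = Fin.last c := by
              apply Fin.ext
              have := k.2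
              rw [Fin.val_last]
              omega
            rw [h6, hul]
            exact Nat.zero_le _
      have hsum : ∑ k, u k < ∑ k, ex (c + 1) (bt a s r) k :=
        sum_lt_sum (fun k _ => hle k) ⟨j, mem_univ _, hj⟩
      rw [hud, hbd] at hsum
      exact lt_irrefl _ hsum
  -- everything below it, filled up with the last variable
  rw [← prod_bt a hpos s r]
  have hcard : (Fintype.piFinset fun i => range (bt a s r i + 1)).card =
      ∏ i, (bt a s r i + 1) := by
    rw [Fintype.card_piFinset]
    simp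
  rw [← hcard, ← Set.ncard_coe_finset]
  refine Set.ncard_le_ncard_of_injOn
    (fun v => (Finsupp.equivFunOnFinite.symm (Fin.snoc (α := fun _ => ℕ) v (m + 1 - ∑ i, v i)) :
      Fin (c + 1) →₀ ℕ)) ?_ ?_ (fin_deg N (m + 1))
  · intro v hv
    rw [mem_coe, Fintype.mem_piFinset] at hv
    have hv' : ∀ i, v i ≤ bt a s r i := fun i => Nat.lt_succ_iff.1 (mem_range.1 (hv i))
    have hvs : ∑ i, v i ≤ m + 1 := by
      rw [hm, ← sum_bt a s r]
      exact sum_le_sum fun i _ => hv' i
    set w : Fin (c + 1) →₀ ℕ :=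
      Finsupp.equivFunOnFinite.symm (Fin.snoc (α := fun _ => ℕ) v (m + 1 - ∑ i, v i)) with hw
    have hw1 : ∀ i : Fin c, w i.castSucc = v i := by
      intro i
      rw [hw, Finsupp.coe_equivFunOnFinite_symm, Fin.snoc_castSucc]
    have hw2 : w (Fin.last c) = m + 1 - ∑ i, v i := by
      rw [hw, Finsupp.coe_equivFunOnFinite_symm, Fin.snoc_last]
    have hwd : ∑ i, w i = m + 1 := by
      rw [Fin.sum_univ_castSucc, hw2]
      simp only [hw1]
      omega
    refine ⟨?_, hwd⟩
    refine hN.lex _ hbN w (fun i => ?_) (by rw [hwd, hbd]) ?_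
    · show w i.castSucc < a i
      rw [hw1]
      exact (hv' i).trans_lt (bt_lt a hpos s hr i)
    · rintro ⟨j, hj, hlt'⟩
      have hjc : ¬ j.1 < c := by
        intro hjc
        have h7 : j = (⟨j.1, hjc⟩ : Fin c).castSucc := rfl
        rw [h7, hw1, ex_apply, dif_pos (by exact hjc)] at hj
        exact absurd (hv' ⟨j.1, hjc⟩) (not_le.2 hj)
      have h6 : j = Fin.last c := by
        apply Fin.ext
        have := j.2
        rw [Fin.val_last]
        omega
      subst h6
      have h8 : ∑ i, v i = m + 1 := by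
        rw [← hbd, Fin.sum_univ_castSucc]
        have h9 : ex (c + 1) (bt a s r) (Fin.last c) = 0 := by
          rw [ex_apply, dif_neg (by simp)]
        rw [h9, add_zero]
        refine sum_congr rfl fun i _ => ?_
        rw [← hw1 i]
        exact hlt' i.castSucc (Fin.castSucc_lt_last i)
      rw [hw2, h8, Nat.sub_self] at hj
      exact Nat.not_lt_zero _ hj
  · intro v _ v' _ heq
    funext i
    have h1 := congrArg (fun e : Fin (c + 1) →₀ ℕ => e i.castSucc) heq
    simpa [Finsupp.coe_equivFunOnFinite_symm, Fin.snoc_castSucc] using h1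

end Vale.Agent.P200.H710
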