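import Vale.Agent.P200F.L7
import Vale.Agent.P200.H710.Defs

set_option autoImplicit false

namespace Vale.Agent.P200.H710

open MvPolynomial Module Vale.Agent.P200F Vale.Agent.P200F.G Vale.Agent.P200F.B
  Vale.Agent.P200F.L

variable {K : Type*} [Field K] {n : ℕ}

/-- a saturated ideal has a linear nonzerodivisor -/
theorem exists_nzd [Infinite K] (I : Ideal (MvPolynomial (Fin n) K))
    (hsat : ∀ g, (∀ i, X i * g ∈ I) → g ∈ I) :
    ∃ l : MvPolynomial (Fin n) K, l.IsHomogeneous 1 ∧ ∀ g, l * g ∈ I → g ∈ I := by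
  obtain ⟨l, hl, hls⟩ := exists_linear_avoid
    (associatedPrimes (MvPolynomial (Fin n) K) (MvPolynomial (Fin n) K ⧸ I))
    (associatedPrimes.finite _ _) (fun p hp => (IsAssociatedPrime.isPrime hp).ne_top) (by
      intro p hp hpirr
      obtain ⟨hpr, x, hx⟩ := isAssociatedPrime_iff.1 hp
      obtain ⟨g, rfl⟩ := Ideal.Quotient.mk_surjective x
      have h1 : g ∈ I := by
        apply hsat
        intro i
        have h2 : (X i : MvPolynomial (Fin n) K) ∈ p := by
          rw [hpirr]
          exact X_mem_irr i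
        rw [hx, Submodule.mem_colon_singleton, Submodule.mem_bot] at h2
        rw [← Ideal.Quotient.eq_zero_iff_mem, map_mul]
        exact h2
      apply hpr.ne_top
      rw [hx, Ideal.Quotient.eq_zero_iff_mem.2 h1]
      simp)
  refine ⟨l, hl, fun g hg => ?_⟩
  by_contra hgI
  have h1 : l ∈ ⋃ p ∈ associatedPrimes (MvPolynomial (Fin n) K) (MvPolynomial (Fin n) K ⧸ I),
      (p : Set (MvPolynomial (Fin n) K)) := by
    rw [biUnion_associatedPrimes_eq_zero_divisors]
    refine ⟨Ideal.Quotient.mk I g, fun h => hgI (Ideal.Quotient.eq_zero_iff_mem.1 h), ?_⟩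
    show Ideal.Quotient.mk I (l * g) = 0
    exact Ideal.Quotient.eq_zero_iff_mem.2 hg
  simp only [Set.mem_iUnion] at h1
  obtain ⟨p, hp, hlp⟩ := h1
  exact hls p hp hlp

theorem hilb_eq_zero_succ {I : Ideal (MvPolynomial (Fin n) K)} {d : ℕ}
    (h : hilb I d = 0) : hilb I (d + 1) = 0 := by
  rw [hilb_eq_zero_iff] at h ⊢
  intro g hg
  rw [g.as_sum]
  refine I.sum_mem fun m hm => ?_
  have hdeg : m.degree = d + 1 := by
    rw [Finsupp.degree_eq_weight_one]
    exact hg (mem_support_iff.1 hm)
  have hne : m ≠ 0 := by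
    rintro rfl
    simp at hdeg
  obtain ⟨i, hi⟩ : ∃ i, m i ≠ 0 := by
    by_contra hall
    push Not at hall
    exact hne (Finsupp.ext hall)
  have h1 : monomial m (coeff m g) = X i * monomial (m - Finsupp.single i 1) (coeff m g) := by
    rw [X, monomial_mul, one_mul, add_tsub_cancel_of_le]
    rw [Finsupp.single_le_iff]
    omega
  rw [h1]
  refine I.mul_mem_left _ (h _ (isHomogeneous_monomial _ ?_))
  have h2 : (Finsupp.single i 1 + (m - Finsupp.single i 1)).degree = m.degree := by
    rw [add_tsub_cancel_of_le]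
    rw [Finsupp.single_le_iff]
    omega
  rw [map_add, hdeg, Finsupp.degree_single] at h2
  omega

/-- growth of the Hilbert function of a saturated ideal -/
theorem hilb_growth_aux [Infinite K] {I : Ideal (MvPolynomial (Fin n) K)} (hI : HomIdeal I)
    (hsat : ∀ g, (∀ i, X i * g ∈ I) → g ∈ I) {m d : ℕ} (hlt : hilb I m < hilb I d) :
    hilb I m < hilb I (m + 1) ∧ hilb I (m + 1) ≤ hilb I d := by
  obtain ⟨l, hl, hnz⟩ := exists_nzd I hsat
  have hcol : colonBy I l = I := by
    ext g
    rw [mem_colonBy]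
    exact ⟨hnz g, fun h => I.mul_mem_left _ h⟩
  have hex : ∀ e, hilb I (e + 1) = hilb (I ⊔ Ideal.span {l}) (e + 1) + hilb I e := by
    intro e
    have := hilb_exact hI hl e
    rwa [hcol] at this
  have hmono : Monotone (hilb I) := monotone_nat_of_le_succ fun e => by
    have := hex e
    omega
  have hmd : m < d := by
    by_contra hle
    exact absurd (hmono (not_lt.1 hle)) (not_le.2 hlt)
  refine ⟨?_, hmono hmd⟩
  by_contra hnlt
  have h0 : hilb (I ⊔ Ideal.span {l}) (m + 1) = 0 := by
    have := hex m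
    omega
  have hall : ∀ k, hilb (I ⊔ Ideal.span {l}) (m + 1 + k) = 0 ∧ hilb I (m + k) = hilb I m := by
    intro k
    induction k with
    | zero => exact ⟨h0, rfl⟩
    | succ k ih =>
      refine ⟨hilb_eq_zero_succ ih.1, ?_⟩
      have h1 := hex (m + k)
      have h2 := ih.1
      rw [show m + 1 + k = m + k + 1 by omega] at h2
      rw [h2, zero_add, ih.2] at h1
      exact h1
  have h3 := (hall (d - m)).2
  rw [show m + (d - m) = d by omega] at h3
  omega

theorem hilb_growth {I : Ideal (MvPolynomial (Fin n) K)} (hI : HomIdeal I)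
    (hsat : ∀ g, (∀ i, X i * g ∈ I) → g ∈ I) {m d : ℕ} (hlt : hilb I m < hilb I d) :
    hilb I m < hilb I (m + 1) ∧ hilb I (m + 1) ≤ hilb I d := by
  have hinf : Infinite (AlgebraicClosure K) := IsAlgClosed.instInfinite
  set IL : Ideal (MvPolynomial (Fin n) (AlgebraicClosure K)) :=
    I.map (MvPolynomial.map (σ := Fin n) (algebraMap K (AlgebraicClosure K))) with hIL
  have hsatL : ∀ g, (∀ i, X i * g ∈ IL) → g ∈ IL := by
    intro g hg
    rw [hIL, mem_map_iff_bcc]
    intro φ
    apply hsat
    intro i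
    have h1 := hg i
    rw [hIL, mem_map_iff_bcc] at h1
    have h2 := h1 φ
    rwa [bcc_X_mul] at h2
  have h1 := hilb_growth_aux (homIdeal_baseChange hI) hsatL (m := m) (d := d) (by
    rw [hilb_baseChange I hI, hilb_baseChange I hI]
    exact hlt)
  rwa [hilb_baseChange I hI, hilb_baseChange I hI, hilb_baseChange I hI] at h1

end Vale.Agent.P200.H710
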