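import Vale.Agent.P200.H710.Comb
import Vale.Agent.P200.H710.Sat
import Vale.Agent.P200.H710.Cancel

set_option autoImplicit false

namespace Vale.Agent.P200.H710

open MvPolynomial Module Vale.Agent.P200F Vale.Agent.P200F.G Vale.Agent.P200F.B
  Vale.Agent.P200F.L Finset

universe u

/-- a lexicographically greatest element -/
theorem exists_lex_max {n c : ℕ} (h : c ≤ n) (a : Fin c → ℕ) (t : ℕ)
    (hne : (outside h a t).Nonempty) :
    ∃ m ∈ outside h a t, ∀ e ∈ outside h a t, ¬ lexGT e m := by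
  obtain ⟨m, hm, hmax⟩ := Set.exists_max_image (outside h a t)
    (fun e => toLex (e : Fin n → ℕ)) (outside_finite h a t) hne
  refine ⟨m, hm, fun e he hlt => ?_⟩
  obtain ⟨i, hi, hj⟩ := hlt
  have h1 : toLex (m : Fin n → ℕ) < toLex (e : Fin n → ℕ) :=
    ⟨i, fun j hji => (hj j hji).symm, hi⟩
  exact absurd (hmax e he) (not_le.2 h1)

section

variable (K : Type u) [Field K] {n c : ℕ} (h : c ≤ n) (a : Fin c → ℕ)
    (ha : Monotone a) (h2 : ∀ i, 2 ≤ a i) (f : Fin c → MvPolynomial (Fin n) K)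
    (hf : ∀ i, (f i).IsHomogeneous (a i)) (hreg : IsRegularSeq f)
    (I : Ideal (MvPolynomial (Fin n) K)) (hI : HomIdeal I) (hfI : ∀ i, f i ∈ I)

include ha h2 hf hreg hI hfI

/-- the largest Hilbert function of the ideals which contain a further form of degree `t` -/
theorem form_bound (t : ℕ) (g : MvPolynomial (Fin n) K) (hg : g ∈ I) (hgt : g.IsHomogeneous t)
    (hgf : g ∉ Ideal.span (Set.range f)) :
    ∃ m ∈ outside h a t, (∀ e ∈ outside h a t, ¬ lexGT e m) ∧
      ∀ d, hilbertFn I d ≤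
        hilbertFn (powerIdeal K h a ⊔ Ideal.span {monomial m (1 : K)}) d := by
  have hpos : ∀ i, 1 ≤ a i := fun i => le_trans one_le_two (h2 i)
  obtain ⟨J, hJ⟩ := V.egh K h a ha h2 f hf hreg I hI hfI
  obtain ⟨hNJ, -, hlex⟩ := exists_NJ h a ha h2 f hf hreg I hI hfI J hJ
  obtain ⟨hJh, -, hfin⟩ := lexPlusPowers_spec h a hpos f hf hreg I hI hfI J hJ
  have hle : Ideal.span (Set.range f) ≤ I := by
    rw [Ideal.span_le]
    rintro _ ⟨i, rfl⟩
    exact hfI i
  have hne : (outside h a t).Nonempty := by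
    by_contra hemp
    rw [Set.not_nonempty_iff_eq_empty] at hemp
    have h3 := hilb_span_regular h a f hf hreg t
    rw [hemp, Set.ncard_empty, hilb_eq_zero_iff] at h3
    exact hgf (h3 g hgt)
  obtain ⟨m, hm, hmax⟩ := exists_lex_max h a t hne
  refine ⟨m, hm, hmax, fun d => ?_⟩
  have hmJ : monomial m (1 : K) ∈ J := hlex t g hg hgt hgf m hm hmax
  have hPJ : powerIdeal K h a ⊔ Ideal.span {monomial m (1 : K)} ≤ J := by
    apply sup_le
    · rw [powerIdeal, Ideal.span_le]
      rintro _ ⟨i, rfl⟩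
      show X (Fin.castLE h i) ^ a i ∈ J
      rw [X_pow_eq_monomial]
      by_contra hnot
      have h3 := hNJ.out _ hnot i
      rw [Finsupp.single_eq_same] at h3
      exact lt_irrefl _ h3
    · rw [Ideal.span_le, Set.singleton_subset_iff]
      exact hmJ
  have h4 := Submodule.finrank_mono (piece_mono hPJ d)
  have h5 : finrank K (degPart I d) = finrank K (piece J d) := (hfin d).symm
  unfold hilbertFn
  rw [h5]
  exact Nat.sub_le_sub_left h4 _

/-- the exponents outside the lex-plus-powers ideal -/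
theorem exists_N : ∃ N : Set (Fin n →₀ ℕ), IsNJ h a N ∧
      (∀ d, {m : Fin n →₀ ℕ | m ∈ N ∧ ∑ i, m i = d}.ncard = hilbertFn I d) ∧
      (∀ s : Fin c, ∀ r < a s, ∀ g ∈ I, g.IsHomogeneous (∑ i ∈ Iio s, (a i - 1) + r) →
        g ∉ Ideal.span (Set.range f) → ex n (tp a s r) ∉ N) := by
  have hpos : ∀ i, 1 ≤ a i := fun i => le_trans one_le_two (h2 i)
  obtain ⟨J, hJ⟩ := V.egh K h a ha h2 f hf hreg I hI hfI
  obtain ⟨hNJ, hcard, hlex⟩ := exists_NJ h a ha h2 f hf hreg I hI hfI J hJ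
  refine ⟨_, hNJ, hcard, fun s r hr g hg hgt hgf hN => hN ?_⟩
  refine hlex _ g hg hgt hgf _ ⟨fun i => ?_, ?_⟩ fun e he => tp_max h a s r e he
  · rw [ex_castLE]
    exact tp_lt a hpos s hr i
  · rw [sum_ex h, sum_tp]

end

end Vale.Agent.P200.H710
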