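import Vale.Agent.P200F.L7
import Vale.Agent.P200.H710.Defs

set_option autoImplicit false

namespace Vale.Agent.P200.H710

open MvPolynomial Module Vale.Agent.P200F Vale.Agent.P200F.G Vale.Agent.P200F.B
  Vale.Agent.P200F.L

variable {K : Type*} [Field K] {n c : ℕ}

theorem hilbertFn_eq (I : Ideal (MvPolynomial (Fin n) K)) (d : ℕ) :
    hilbertFn I d = hilb I d := rfl

/-- a set of exponents with the properties of the complement of a lex-plus-powers ideal -/
structure IsNJ (h : c ≤ n) (a : Fin c → ℕ) (N : Set (Fin n →₀ ℕ)) : Prop where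
  down : ∀ m ∈ N, ∀ m', m' ≤ m → m' ∈ N
  out : ∀ m ∈ N, ∀ i, m (Fin.castLE h i) < a i
  lex : ∀ m ∈ N, ∀ m' : Fin n →₀ ℕ, (∀ i, m' (Fin.castLE h i) < a i) →
    ∑ i, m' i = ∑ i, m i → ¬ lexGT m' m → m' ∈ N

theorem exists_NJ (h : c ≤ n) (a : Fin c → ℕ)
    (_ha : Monotone a) (h2 : ∀ i, 2 ≤ a i) (f : Fin c → MvPolynomial (Fin n) K)
    (hf : ∀ i, (f i).IsHomogeneous (a i)) (hreg : IsRegularSeq f)
    (I : Ideal (MvPolynomial (Fin n) K)) (hI : HomIdeal I) (hfI : ∀ i, f i ∈ I)
    (J : Ideal (MvPolynomial (Fin n) K)) (hJ : J.restrictScalars K = lexPlusPowers h a I) :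
    IsNJ h a {m | monomial m (1 : K) ∉ J} ∧
      (∀ d, {m : Fin n →₀ ℕ | monomial m (1 : K) ∉ J ∧ ∑ i, m i = d}.ncard = hilbertFn I d) ∧
      (∀ t, ∀ g ∈ I, g.IsHomogeneous t → g ∉ Ideal.span (Set.range f) →
        ∀ m ∈ outside h a t, (∀ e ∈ outside h a t, ¬ lexGT e m) → monomial m (1 : K) ∈ J) := by
  have hpos : ∀ i, 1 ≤ a i := fun i => le_trans one_le_two (h2 i)
  obtain ⟨hJh, hpiece, hfin⟩ := lexPlusPowers_spec h a hpos f hf hreg I hI hfI J hJ
  have hmem : ∀ m : Fin n →₀ ℕ, monomial m (1 : K) ∈ J ↔ m ∈ lppSet K h a I := by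
    intro m
    have h1 : monomial m (1 : K) ∈ J ↔ monomial m (1 : K) ∈ J.restrictScalars K := Iff.rfl
    rw [h1, hJ, lexPlusPowers_eq, monomial_mem_restrictSupport]
    simp
  have hmem' : ∀ (m : Fin n →₀ ℕ) (d : ℕ), ∑ i, m i = d →
      (monomial m (1 : K) ∈ J ↔ m ∈ lexSet h a d (qdim h a I d)) := by
    intro m d hd
    rw [hmem, ← lppSet_inter]
    exact ⟨fun hm => ⟨hm, hd⟩, fun hm => hm.1⟩
  refine ⟨⟨?_, ?_, ?_⟩, ?_, ?_⟩
  · intro m hm m' hle hm'
    apply hm
    have : monomial m (1 : K) = monomial (m - m') (1 : K) * monomial m' (1 : K) := by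
      rw [monomial_mul, one_mul, tsub_add_cancel_of_le hle]
    rw [this]
    exact J.mul_mem_left _ hm'
  · intro m hm i
    by_contra hi
    apply hm
    rw [hmem]
    exact Or.inl ⟨i, not_lt.1 hi⟩
  · intro m hm m' hout hsum hlex hm'
    apply hm
    have hmo : ∀ i, m (Fin.castLE h i) < a i := by
      intro i
      by_contra hi
      exact hm ((hmem m).2 (Or.inl ⟨i, not_lt.1 hi⟩))
    by_cases hne : m' = m
    · rwa [hne] at hm'
    rcases lexGT_total hne with h3 | h3
    · exact absurd h3 hlex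
    · rw [hmem] at hm' ⊢
      right
      refine ⟨⟨hmo, rfl⟩, ?_⟩
      rcases hm' with ⟨i, hi⟩ | ⟨-, hlt⟩
      · exact absurd (hout i) (not_lt.2 hi)
      · rw [hsum] at hlt
        refine lt_of_le_of_lt (Set.ncard_le_ncard ?_ ?_) hlt
        · rintro x ⟨hx1, hx2⟩
          exact ⟨hx1, lexGT_tr hx2 h3⟩
        · exact (outside_finite h a _).subset fun x hx => hx.1
  · intro d
    have h1 : {m : Fin n →₀ ℕ | monomial m (1 : K) ∉ J ∧ ∑ i, m i = d} =
        {m : Fin n →₀ ℕ | ∑ i, m i = d} \ lexSet h a d (qdim h a I d) := by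
      ext m
      constructor
      · rintro ⟨hm1, hm2⟩
        exact ⟨hm2, fun h => hm1 ((hmem' m d hm2).2 h)⟩
      · rintro ⟨hm1, hm2⟩
        exact ⟨fun h => hm2 ((hmem' m d hm1).1 h), hm1⟩
    have hsub : lexSet h a d (qdim h a I d) ⊆ {m : Fin n →₀ ℕ | ∑ i, m i = d} := by
      rw [← lppSet_inter]
      exact Set.inter_subset_right
    rw [h1, Set.ncard_sdiff hsub (lexSet_finite _ _ _ _), hilbertFn, homogeneousSubmodule_eq_restrict,
      finrank_restrictSupport _ (finite_degree_eq d)]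
    have h4 : finrank K (degPart I d) = finrank K (piece I d) := rfl
    rw [h4, ← hfin d, hpiece d, lexPart_eq, finrank_restrictSupport _ (lexSet_finite _ _ _ _)]
  · intro t g hg hgt hgf m hm hmax
    rw [hmem' m t hm.2]
    right
    refine ⟨hm, ?_⟩
    have h3 : {e' | e' ∈ outside h a t ∧ lexGT e' m} = ∅ := by
      ext e
      simp only [Set.mem_ofPred_eq, Set.mem_empty_iff_false, iff_false, not_and]
      exact hmax e
    rw [h3, Set.ncard_empty, qdim, finrank_powerIdeal h a hpos f hf hreg t]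
    have hle : Ideal.span (Set.range f) ≤ I := by
      rw [Ideal.span_le]
      rintro _ ⟨i, rfl⟩
      exact hfI i
    have h4 : finrank K (piece (Ideal.span (Set.range f)) t) < finrank K (piece I t) := by
      apply Submodule.finrank_lt_finrank_of_lt
      refine lt_of_le_of_ne (piece_mono hle t) fun heq => ?_
      have : g ∈ piece I t := ⟨hg, hgt⟩
      rw [← heq] at this
      exact hgf this.1
    exact Nat.sub_pos_of_lt h4

end Vale.Agent.P200.H710
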